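import Vale.Agent.P233G72.Div
import Vale.Agent.P233G30.Hess

/-! P233G: the module axioms hold, and the integrands in the definitions of the Hessian and of the
covariant derivative are integrable. -/

set_option linter.all false

open MeasureTheory Filter Topology Set
open scoped ENNReal NNReal InnerProductSpace

universe u

namespace Vale.Agent.P233G72

open Vale.Agent.P233 Vale.Agent.P233G

variable {M : Type u} [MetricSpace M] [MeasurableSpace M]
  {U : Measure M → (M → ℝ) → (M → ℝ) → Prop} {m : Measure M}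
  {H : Type u} [NormedAddCommGroup H] [InnerProductSpace ℝ H] {T : Tan U m H}

theorem ip_nonneg (X : H) : 0 ≤ T.ip X X := by
  rw [nonneg_iff_ae]
  refine ae_nonneg_of_forall_setIntegral_nonneg (T.int X X).1 fun A hA _ => ?_
  rw [← int_ind hA]
  have h := real_inner_self_nonneg (x := T.sm (ind m hA) X)
  rw [inner_sm T (ind_mem hA)] at h
  refine h.trans_eq (integral_congr_ae ?_)
  filter_upwards [ip_sm_ae' T (ind_mem hA) X X, ind_ae (m := m) hA] with x h1 h2
  rw [h1, h2]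
  by_cases hx : x ∈ A <;> simp [hx]

theorem hmod (hb : Bas T) (a b : L0 m) (ha : MemLp a ∞ m) (hb' : MemLp b ∞ m) (X Y : H) :
    T.sm a (X + Y) = T.sm a X + T.sm a Y ∧ T.sm (a + b) X = T.sm a X + T.sm b X ∧
      T.sm (a * b) X = T.sm a (T.sm b X) ∧ T.sm 1 X = X ∧ 0 ≤ T.ip X X :=
  ⟨sm_add hb ha X Y, eq_of_ip (T := T) fun Z => by
      rw [hb.add, T.ip_sm a ha, T.ip_sm b hb', T.ip_sm _ (mem_add ha hb'), add_mul],
    (sm_sm ha hb' X).symm, sm_one T X, ip_nonneg X⟩

theorem int_of_mul {f g : L0 m} (h : MemLp (f * g : L0 m) 1 m) :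
    Integrable (fun x => f x * g x) m :=
  (int_of_mem h).congr (mul_ae f g)

theorem ip_top (hb : Bas T) (hC : IsGamma (sob m)) {κ : ℝ} (hB : (sob m).BEi κ)
    {l l' : List (L0 m × L0 m)} (hl : (sob m).IsTestV l) (hl' : (sob m).IsTestV l') :
    MemLp (T.ip (T.io l) (T.io l')) ∞ m := by
  rw [ip_io hb hC hl hl']
  unfold Calc.ip
  refine mem_ls fun p hp => mem_ls fun q hq => ?_
  exact mem_mul_top (mem_mul_top (hC.test_A (hl p hp).1).2 (hC.test_A (hl' q hq).1).2)
    (hC.Γ_mem hB (hl p hp).2 (hl' q hq).2).2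

theorem ip_grad_top (hb : Bas T) (hC : IsGamma (sob m)) {κ : ℝ} (hB : (sob m).BEi κ)
    {l : List (L0 m × L0 m)} (hl : (sob m).IsTestV l) {g : L0 m} (hg : g ∈ (sob m).Test) :
    MemLp (T.ip (T.io l) (T.grad g)) 2 m := by
  rw [ip_io_left hb hC hl]
  refine mem_ls fun p hp => mem_mul_top (hC.test_A (hl p hp).1).2 ?_
  rw [hb.gg _ (hC.test_A (hl p hp).2).1 _ (hC.test_A hg).1]
  exact hC.memLp _ (hC.Γ_mem hB (hl p hp).2 hg).1

variable [SecondCountableTopology M] [BorelSpace M] {κ : ℝ} {Gr : L0 m → M → E1}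
  {J : H →L[ℝ] Lp E1 2 m} {σ : L0 m → M → E2}

theorem hint2 (K : Kit T κ Gr J σ) (f g k h : L0 m) (Y : H) (A : H → H → L0 m) (hf : T.Test f)
    (hg : T.Test g) (hk : T.Test k) (hh : T.Test h) (hY : T.TestV Y) (hA : T.IsTen A) :
    Integrable (fun x => h x * A (T.grad g) (T.grad k) x) m ∧
    Integrable (fun x => -(T.ip (T.grad f) (T.grad g) x * T.div (T.sm h (T.grad k)) x)
        - T.ip (T.grad f) (T.grad k) x * T.div (T.sm h (T.grad g)) x
        - h x * T.ip (T.grad f) (T.grad (T.ip (T.grad g) (T.grad k))) x) m ∧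
    Integrable (fun x => -(T.ip Y (T.grad k) x * T.div (T.sm h (T.grad g)) x)
        - h x * T.hess k Y (T.grad g) x) m := by
  have hb := K.b
  have hC := K.c.hC
  have hB := K.c.hB
  rw [test_iff hb hC] at hf hg hk hh
  obtain ⟨l, hl, rfl⟩ := (testV_iff hb hC Y).1 hY
  have h2 : MemLp h 2 m := hC.memLp _ (hC.test_A hh).1
  have d : ∀ {a : L0 m}, a ∈ (sob m).Test → MemLp (T.div (T.sm h (T.grad a))) 2 m := fun ha => by
    rw [div_sm hb hC hh ha]
    exact (isDiv_one hb hC hh ha).1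
  have e : ∀ {a : L0 m}, a ∈ (sob m).Test → MemLp (T.ip (T.grad f) (T.grad a)) 2 m := fun ha => by
    rw [hb.gg _ (hC.test_A hf).1 _ (hC.test_A ha).1]
    exact hC.memLp _ (hC.Γ_mem hB hf ha).1
  refine ⟨int_of_mul (mem_mul_22 h2 (ten_mem2 hA (K.gtop hg) (K.gtop hk))), ?_, ?_⟩
  · exact ((int_of_mul (mem_mul_22 (e hg) (d hk))).neg.sub
      (int_of_mul (mem_mul_22 (e hk) (d hg)))).sub
      (int_of_mul (mem_mul_top (hC.test_A hh).2 (memLp_one_iff_integrable.2 (T.int _ _).1)))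
  · exact (int_of_mul (mem_mul_22 (ip_grad_top hb hC hB hl hk) (d hg))).neg.sub
      (int_of_mul (mem_mul_22 h2
        (ten_mem2 (K.isHess hk).1 (ip_top hb hC hB hl hl) (K.gtop hg))))

end Vale.Agent.P233G72
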