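import Vale.Agent.P233G30.Rows

/-! P233G, row TJ: every tangent module is realized inside `L²(M; E1)`. -/

set_option linter.all false

open MeasureTheory Filter Topology Set
open scoped ENNReal NNReal InnerProductSpace

universe u

namespace Vale.Agent.P233G72

open Vale.Agent.P233 Vale.Agent.P233G

variable {M : Type u} [MetricSpace M] [MeasurableSpace M]
  {U : Measure M → (M → ℝ) → (M → ℝ) → Prop} {m : Measure M}
  {H : Type u} [NormedAddCommGroup H] [InnerProductSpace ℝ H]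

theorem memLp_smul {E : Type*} [NormedAddCommGroup E] [NormedSpace ℝ E] {a : M → ℝ}
    (ha : MemLp a ∞ m) {F : M → E} (hF : MemLp F 2 m) : MemLp (fun x => a x • F x) 2 m :=
  MemLp.smul (p := ∞) (q := 2) (r := 2) hF ha

theorem one_mem : MemLp (1 : L0 m) ∞ m :=
  (memLp_congr_ae (AEEqFun.coeFn_one (α := M) (μ := m) (β := ℝ))).2 (memLp_top_const (1 : ℝ))

/-- the class of the indicator of a measurable set -/
noncomputable def ind (m : Measure M) {A : Set M} (hA : MeasurableSet A) : L0 m :=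
  AEEqFun.mk (A.indicator fun _ => (1 : ℝ))
    ((measurable_const.indicator hA).aestronglyMeasurable)

theorem ind_ae {A : Set M} (hA : MeasurableSet A) :
    (ind m hA : M → ℝ) =ᵐ[m] A.indicator fun _ => (1 : ℝ) := AEEqFun.coeFn_mk _ _

theorem ind_mem {A : Set M} (hA : MeasurableSet A) : MemLp (ind m hA) ∞ m :=
  (memLp_congr_ae (ind_ae hA)).2 ((memLp_top_const (1 : ℝ)).indicator hA)

theorem int_ind {A : Set M} (hA : MeasurableSet A) (g : M → ℝ) :
    ∫ x, ind m hA x * g x ∂m = ∫ x in A, g x ∂m := by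
  rw [← integral_indicator hA]
  refine integral_congr_ae ?_
  filter_upwards [ind_ae (m := m) hA] with x hx
  rw [hx]
  by_cases h : x ∈ A <;> simp [h]

variable (T : Tan U m H)

theorem inner_sm {a : L0 m} (ha : MemLp a ∞ m) (X Y : H) :
    ⟪T.sm a X, Y⟫_ℝ = ∫ x, a x * T.ip X Y x ∂m := by
  rw [(T.int _ _).2, T.ip_sm a ha]
  exact integral_congr_ae (AEEqFun.coeFn_mul _ _)

theorem ip_sm_ae {a : L0 m} (ha : MemLp a ∞ m) (X Y : H) :
    ∀ᵐ x ∂m, T.ip (T.sm a X) Y x = a x * T.ip X Y x := by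
  rw [T.ip_sm a ha]
  exact AEEqFun.coeFn_mul _ _

theorem ip_sm_ae' {a : L0 m} (ha : MemLp a ∞ m) (X Y : H) :
    ∀ᵐ x ∂m, T.ip X (T.sm a Y) x = a x * T.ip X Y x := by
  rw [T.symm X, T.symm X]
  exact ip_sm_ae T ha Y X

theorem sm_one (X : H) : T.sm 1 X = X := by
  refine ext_inner_right ℝ fun Y => ?_
  rw [(T.int _ _).2, (T.int _ _).2, T.ip_sm 1 one_mem, one_mul]

theorem inner_mul {a : M → ℝ} (ha : MemLp a ∞ m) (F G : Lp E1 2 m) :
    ⟪(memLp_smul ha (Lp.memLp F)).toLp _, G⟫_ℝ = ∫ x, a x * ⟪F x, G x⟫_ℝ ∂m := by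
  rw [L2.inner_def]
  refine integral_congr_ae ?_
  filter_upwards [(memLp_smul ha (Lp.memLp F)).coeFn_toLp] with x hx
  rw [hx, real_inner_smul_left]

/-- a continuous linear map that respects the pointwise inner product on a dense set respects it
everywhere -/
theorem ip_ext (J : H →L[ℝ] Lp E1 2 m) {D : Set H} (hD : Dense D)
    (h : ∀ X ∈ D, ∀ Y ∈ D, ∀ᵐ x ∂m, T.ip X Y x = ⟪J X x, J Y x⟫_ℝ) (X Y : H) :
    ∀ᵐ x ∂m, T.ip X Y x = ⟪J X x, J Y x⟫_ℝ := by
  have step : ∀ (a : L0 m) (ha : MemLp a ∞ m) (X : H),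
      (∀ Y ∈ D, ∫ x, a x * T.ip X Y x ∂m = ∫ x, a x * ⟪J X x, J Y x⟫_ℝ ∂m) →
      ∀ Y, ∫ x, a x * T.ip X Y x ∂m = ∫ x, a x * ⟪J X x, J Y x⟫_ℝ ∂m := by
    intro a ha X hX Y
    have e : (fun Y => ⟪T.sm a X, Y⟫_ℝ) =
        fun Y => ⟪(memLp_smul ha (Lp.memLp (J X))).toLp _, J Y⟫_ℝ := by
      refine Continuous.ext_on hD (by fun_prop) (by fun_prop) fun Y hY => ?_
      show ⟪T.sm a X, Y⟫_ℝ = ⟪(memLp_smul ha (Lp.memLp (J X))).toLp _, J Y⟫_ℝ
      rw [inner_sm T ha, inner_mul ha, hX Y hY]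
    have := congrFun e Y
    rwa [inner_sm T ha, inner_mul ha] at this
  have all : ∀ (a : L0 m) (ha : MemLp a ∞ m),
      ∫ x, a x * T.ip X Y x ∂m = ∫ x, a x * ⟪J X x, J Y x⟫_ℝ ∂m := by
    intro a ha
    refine step a ha X (fun Z hZ => ?_) Y
    have h1 := step a ha Z (fun Z' hZ' => integral_congr_ae (by
      filter_upwards [h Z hZ Z' hZ'] with x hx
      rw [hx])) X
    rw [T.symm X Z, h1]
    simp only [real_inner_comm]
  refine Integrable.ae_eq_of_forall_setIntegral_eq _ _ (T.int X Y).1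
    (L2.integrable_inner (J X) (J Y)) fun A hA _ => ?_
  rw [← int_ind hA, ← int_ind hA]
  exact all _ (ind_mem hA)

theorem sm_of_ip (J : H →L[ℝ] Lp E1 2 m)
    (h : ∀ X Y, ∀ᵐ x ∂m, T.ip X Y x = ⟪J X x, J Y x⟫_ℝ) {a : L0 m} (ha : MemLp a ∞ m) (X : H) :
    ∀ᵐ x ∂m, J (T.sm a X) x = a x • J X x := by
  filter_upwards [h (T.sm a X) (T.sm a X), h (T.sm a X) X, h X X, ip_sm_ae T ha X (T.sm a X),
    ip_sm_ae' T ha X X, ip_sm_ae T ha X X] with x h1 h2 h3 h4 h5 h6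
  have : ⟪J (T.sm a X) x - a x • J X x, J (T.sm a X) x - a x • J X x⟫_ℝ = 0 := by
    rw [inner_sub_left, inner_sub_right, inner_sub_right, real_inner_smul_left,
      real_inner_smul_right, real_inner_smul_left, real_inner_smul_right,
      real_inner_comm (J (T.sm a X) x) (J X x), ← h1, ← h2, ← h3, h4, h5, h6]
    ring
  exact sub_eq_zero.1 (inner_self_eq_zero.1 this)

end Vale.Agent.P233G72

namespace Vale.Agent.P233G72

open Vale.Agent.P233 Vale.Agent.P233G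

theorem tj : TJ.{u} := by
  intro M _ _ _ _ U m κ Gr hc H _ _ T hb
  let ι := {p : L0 m × L0 m // MemLp p.1 ∞ m ∧ p.2 ∈ (sob m).W}
  let e : ι → H := fun p => T.sm p.1.1 (T.grad p.1.2)
  let v : ι → Lp E1 2 m := fun p => (memLp_smul p.2.1 (hc.hG.mem _ p.2.2)).toLp _
  have hv : ∀ p : ι, ∀ᵐ x ∂m, v p x = p.1.1 x • Gr p.1.2 x := fun p =>
    (memLp_smul p.2.1 (hc.hG.mem _ p.2.2)).coeFn_toLp
  let T1 : (ι →₀ ℝ) →ₗ[ℝ] H := Finsupp.linearCombination ℝ e
  let T2 : (ι →₀ ℝ) →ₗ[ℝ] Lp E1 2 m := Finsupp.linearCombination ℝ v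
  have base : ∀ p q : ι, ∀ᵐ x ∂m, T.ip (e p) (e q) x = ⟪v p x, v q x⟫_ℝ := by
    intro p q
    filter_upwards [hv p, hv q, ip_sm_ae T p.2.1 (T.grad p.1.2) (e q),
      ip_sm_ae' T q.2.1 (T.grad p.1.2) (T.grad q.1.2), hc.hG.inner _ p.2.2 _ q.2.2]
      with x h1 h2 h3 h4 h5
    rw [h1, h2, real_inner_smul_left, real_inner_smul_right, h5, ← hb.gg _ p.2.2 _ q.2.2, ← h4,
      ← h3]
  have lin : ∀ (Y : H) (G : Lp E1 2 m), (∀ p : ι, ∀ᵐ x ∂m, T.ip (e p) Y x = ⟪v p x, G x⟫_ℝ) →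
      ∀ s, ∀ᵐ x ∂m, T.ip (T1 s) Y x = ⟪T2 s x, G x⟫_ℝ := by
    intro Y G h s
    induction s using Finsupp.induction_linear with
    | zero =>
      have : T.ip 0 Y = 0 := by simpa using hb.smul 0 0 Y
      rw [map_zero, map_zero, this]
      filter_upwards [AEEqFun.coeFn_zero (α := M) (μ := m) (β := ℝ),
        Lp.coeFn_zero E1 2 m] with x h1 h2
      rw [h1, h2]
      simp
    | add s t hs ht =>
      rw [map_add, map_add, hb.add]
      filter_upwards [hs, ht, AEEqFun.coeFn_add (T.ip (T1 s) Y) (T.ip (T1 t) Y),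
        Lp.coeFn_add (T2 s) (T2 t)] with x h1 h2 h3 h4
      rw [h3, h4, Pi.add_apply, Pi.add_apply, inner_add_left, h1, h2]
    | single p c =>
      have e1 : T1 (Finsupp.single p c) = c • e p := Finsupp.linearCombination_single ℝ c p
      have e2 : T2 (Finsupp.single p c) = c • v p := Finsupp.linearCombination_single ℝ c p
      rw [e1, e2, hb.smul]
      filter_upwards [h p, AEEqFun.coeFn_smul c (T.ip (e p) Y), Lp.coeFn_smul c (v p)]
        with x h1 h2 h3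
      rw [h2, h3, Pi.smul_apply, Pi.smul_apply, real_inner_smul_left, h1, smul_eq_mul]
  have key : ∀ s t, ∀ᵐ x ∂m, T.ip (T1 s) (T1 t) x = ⟪T2 s x, T2 t x⟫_ℝ := by
    intro s t
    refine lin _ _ (fun p => ?_) s
    have := lin (e p) (v p) (fun q => base q p) t
    rw [T.symm]
    filter_upwards [this] with x hx
    rw [hx, real_inner_comm]
  have hn : ∃ C, ∀ s, ‖T2 s‖ ≤ C * ‖T1 s‖ := by
    refine ⟨1, fun s => ?_⟩
    have : ⟪T1 s, T1 s⟫_ℝ = ⟪T2 s, T2 s⟫_ℝ := by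
      rw [(T.int _ _).2, L2.inner_def]
      exact integral_congr_ae (key s s)
    rw [real_inner_self_eq_norm_sq, real_inner_self_eq_norm_sq] at this
    rw [one_mul, (pow_left_inj₀ (norm_nonneg _) (norm_nonneg _) two_ne_zero).1 this]
  have hd : DenseRange T1 := by
    have h1 : Set.range e =
        {X | ∃ a f : L0 m, MemLp a ∞ m ∧ W U m f ∧ X = T.sm a (T.grad f)} := by
      ext X
      constructor
      · rintro ⟨p, rfl⟩
        exact ⟨p.1.1, p.1.2, p.2.1, (hb.w _).2 p.2.2, rfl⟩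
      · rintro ⟨a, f, ha, hf, rfl⟩
        exact ⟨⟨(a, f), ha, (hb.w _).1 hf⟩, rfl⟩
    have h2 := T.gen
    rw [← h1, ← Finsupp.range_linearCombination] at h2
    exact h2
  let J : H →L[ℝ] Lp E1 2 m := T2.extendOfNorm T1
  have hJ : ∀ s, J (T1 s) = T2 s := fun s => LinearMap.extendOfNorm_eq hd hn s
  have hip : ∀ X Y, ∀ᵐ x ∂m, T.ip X Y x = ⟪J X x, J Y x⟫_ℝ := by
    refine ip_ext T J hd ?_
    rintro _ ⟨s, rfl⟩ _ ⟨t, rfl⟩
    rw [hJ, hJ]
    exact key s t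
  refine ⟨J, hip, fun a ha X => sm_of_ip T J hip ha X, fun f hf => ?_⟩
  let p : ι := ⟨(1, f), one_mem, hf⟩
  have e1 : T1 (Finsupp.single p 1) = T.grad f := by
    have : T1 (Finsupp.single p 1) = (1 : ℝ) • e p := Finsupp.linearCombination_single ℝ 1 p
    rw [this, one_smul]
    exact sm_one T _
  have e2 : T2 (Finsupp.single p 1) = v p := by
    have : T2 (Finsupp.single p 1) = (1 : ℝ) • v p := Finsupp.linearCombination_single ℝ 1 p
    rw [this, one_smul]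
  rw [← e1, hJ, e2]
  filter_upwards [hv p, AEEqFun.coeFn_one (α := M) (μ := m) (β := ℝ)] with x h1 h2
  rw [h1]
  show (1 : L0 m) x • Gr f x = _
  rw [h2]
  simp

end Vale.Agent.P233G72
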