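import Vale.Agent.P233G72.TJ

/-! P233G: test functions, test vector fields and the divergence, module side = list side. -/

set_option linter.all false

open MeasureTheory Filter Topology Set
open scoped ENNReal NNReal InnerProductSpace

universe u

namespace Vale.Agent.P233G72

open Vale.Agent.P233 Vale.Agent.P233G

theorem pick_eq {α : Type u} {P : α → Prop} {a : α} (d : α) (ha : P a)
    (hu : ∀ b, P b → b = a) : Vale.Agent.P233.T.pick P d = a := by
  have h : ∃ a, P a := ⟨a, ha⟩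
  unfold Vale.Agent.P233.T.pick
  rw [dif_pos h]
  exact hu _ h.choose_spec

variable {M : Type u} [MetricSpace M] [MeasurableSpace M]
  {U : Measure M → (M → ℝ) → (M → ℝ) → Prop} {m : Measure M}
  {H : Type u} [NormedAddCommGroup H] [InnerProductSpace ℝ H] {T : Tan U m H}

theorem int_mul (f g : L0 m) : ∫ x, f x * g x ∂m = I (f * g) :=
  (integral_congr_ae (AEEqFun.coeFn_mul f g)).symm

theorem eq_of_ip {X Y : H} (h : ∀ Z, T.ip X Z = T.ip Y Z) : X = Y :=
  ext_inner_right ℝ fun Z => by rw [(T.int _ _).2, (T.int _ _).2, h]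

theorem io_nil : T.io [] = 0 := rfl

theorem io_cons (p : L0 m × L0 m) (l : List (L0 m × L0 m)) :
    T.io (p :: l) = T.sm p.1 (T.grad p.2) + T.io l := by
  simp [Tan.io]

theorem io_single (a b : L0 m) : T.io [(a, b)] = T.sm a (T.grad b) := by
  simp [Tan.io]

theorem ip_sm_right {a : L0 m} (ha : MemLp a ∞ m) (X Y : H) :
    T.ip X (T.sm a Y) = a * T.ip X Y := by
  rw [T.symm, T.ip_sm a ha, T.symm]

variable (hb : Bas T)
include hb

theorem ip_zero_left (Y : H) : T.ip 0 Y = 0 := by simpa using hb.smul 0 0 Y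

theorem ip_zero_right (Y : H) : T.ip Y 0 = 0 := by rw [T.symm, ip_zero_left hb]

theorem ip_add_right (X Y Y' : H) : T.ip X (Y + Y') = T.ip X Y + T.ip X Y' := by
  rw [T.symm, hb.add, T.symm Y, T.symm Y']

theorem ip_sub_left (X X' Y : H) : T.ip (X - X') Y = T.ip X Y - T.ip X' Y := by
  rw [eq_sub_iff_add_eq, ← hb.add, sub_add_cancel]

theorem sm_add {a : L0 m} (ha : MemLp a ∞ m) (X Y : H) :
    T.sm a (X + Y) = T.sm a X + T.sm a Y :=
  eq_of_ip (T := T) fun Z => by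
    rw [hb.add, T.ip_sm a ha, T.ip_sm a ha, T.ip_sm a ha, hb.add, mul_add]

theorem sm_zero {a : L0 m} (ha : MemLp a ∞ m) : T.sm a 0 = 0 :=
  eq_of_ip (T := T) fun Z => by rw [T.ip_sm a ha, ip_zero_left hb, mul_zero]

omit hb in
theorem sm_sm {a b : L0 m} (ha : MemLp a ∞ m) (hb' : MemLp b ∞ m) (X : H) :
    T.sm a (T.sm b X) = T.sm (a * b) X :=
  eq_of_ip (T := T) fun Z => by
    rw [T.ip_sm a ha, T.ip_sm b hb', T.ip_sm _ (mem_mul_top ha hb'), mul_assoc]

theorem isDiv_grad_iff {f : L0 m} (hf : f ∈ (sob m).W) (hC : IsGamma (sob m)) (h : L0 m) :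
    T.IsDiv (T.grad f) h ↔ (sob m).IsLap f h := by
  have e : ∀ g ∈ (sob m).W, (∫ x, T.ip (T.grad g) (T.grad f) x ∂m = -∫ x, g x * h x ∂m ↔
      ∫ x, (sob m).Γ f g x ∂m = -∫ x, (h * g) x ∂m) := by
    intro g hg
    rw [hb.gg g hg f hf, hC.symm g hg f hf, int_mul, mul_comm g h]
    rfl
  constructor
  · rintro ⟨h1, h2⟩
    exact ⟨hf, h1, fun g hg => (e g hg).1 (h2 g ((hb.w g).2 hg))⟩
  · rintro ⟨-, h1, h2⟩
    exact ⟨h1, fun g hg => (e g ((hb.w g).1 hg)).2 (h2 g ((hb.w g).1 hg))⟩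

theorem test_iff (hC : IsGamma (sob m)) (f : L0 m) : T.Test f ↔ f ∈ (sob m).Test := by
  constructor
  · rintro ⟨h1, h2, h, h3, h4⟩
    exact ⟨h1, h, (isDiv_grad_iff hb ((hb.w f).1 h2) hC h).1 h3, (hb.w h).1 h4⟩
  · rintro ⟨h1, h, h3, h4⟩
    exact ⟨h1, (hb.w f).2 h3.1, h, (isDiv_grad_iff hb h3.1 hC h).2 h3, (hb.w h).2 h4⟩

theorem testV_iff (hC : IsGamma (sob m)) (X : H) :
    T.TestV X ↔ ∃ l, (sob m).IsTestV l ∧ T.io l = X := by
  constructor
  · rintro ⟨l, h1, h2⟩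
    exact ⟨l, fun p hp => ⟨(test_iff hb hC _).1 (h1 p hp).1, (test_iff hb hC _).1 (h1 p hp).2⟩,
      h2.symm⟩
  · rintro ⟨l, h1, h2⟩
    exact ⟨l, fun p hp => ⟨(test_iff hb hC _).2 (h1 p hp).1, (test_iff hb hC _).2 (h1 p hp).2⟩,
      h2.symm⟩

omit hb in
theorem tv_cons {p : L0 m × L0 m} {l : List (L0 m × L0 m)} (h : (sob m).IsTestV (p :: l)) :
    (p.1 ∈ (sob m).Test ∧ p.2 ∈ (sob m).Test) ∧ (sob m).IsTestV l :=
  ⟨h p (by simp), fun q hq => h q (by simp [hq])⟩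

theorem ip_io_left (hC : IsGamma (sob m)) {l : List (L0 m × L0 m)} (hl : (sob m).IsTestV l)
    (Y : H) : T.ip (T.io l) Y = (l.map fun p => p.1 * T.ip (T.grad p.2) Y).sum := by
  induction l with
  | nil => exact ip_zero_left hb Y
  | cons p l ih =>
    rw [io_cons, hb.add, ih (tv_cons hl).2, T.ip_sm _ (hC.test_A (tv_cons hl).1.1).2]
    simp

theorem ip_io_right (hC : IsGamma (sob m)) {l : List (L0 m × L0 m)} (hl : (sob m).IsTestV l)
    (Y : H) : T.ip Y (T.io l) = (l.map fun p => p.1 * T.ip Y (T.grad p.2)).sum := by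
  rw [T.symm, ip_io_left hb hC hl]
  simp only [T.symm Y]

theorem ip_io (hC : IsGamma (sob m)) {l l' : List (L0 m × L0 m)} (hl : (sob m).IsTestV l)
    (hl' : (sob m).IsTestV l') : T.ip (T.io l) (T.io l') = (sob m).ip l l' := by
  rw [ip_io_left hb hC hl]
  unfold Calc.ip
  congr 1
  refine List.map_congr_left fun p hp => ?_
  rw [ip_io_right hb hC hl', ← List.sum_map_mul_left]
  congr 1
  refine List.map_congr_left fun q hq => ?_
  rw [hb.gg _ (hC.test_A (hl p hp).2).1 _ (hC.test_A (hl' q hq).2).1, mul_assoc]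

theorem sm_io (hC : IsGamma (sob m)) {f : L0 m} (hf : MemLp f ∞ m) {l : List (L0 m × L0 m)}
    (hl : (sob m).IsTestV l) : T.sm f (T.io l) = T.io (Calc.mulV f l) := by
  induction l with
  | nil => exact sm_zero hb hf
  | cons p l ih =>
    have : Calc.mulV f (p :: l) = (f * p.1, p.2) :: Calc.mulV f l := rfl
    rw [this, io_cons, io_cons, sm_add hb hf, ih (tv_cons hl).2,
      sm_sm hf (hC.test_A (tv_cons hl).1.1).2]

theorem isDiv_unique (hC : IsGamma (sob m)) {X : H} {h k : L0 m} (h1 : T.IsDiv X h)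
    (h2 : T.IsDiv X k) : h = k := by
  rw [← sub_eq_zero]
  refine hC.toIsDir.eq_zero_of_orth (mem_sub h1.1 h2.1) fun g hg => ?_
  have g2 := hC.memLp g hg
  have e1 := h1.2 g ((hb.w g).2 hg)
  have e2 := h2.2 g ((hb.w g).2 hg)
  rw [int_mul] at e1 e2
  rw [sub_mul, I_sub (mem_mul_22 h1.1 g2) (mem_mul_22 h2.1 g2), mul_comm h, mul_comm k]
  linarith

theorem isDiv_add {X Y : H} {h k : L0 m} (hC : IsGamma (sob m)) (h1 : T.IsDiv X h)
    (h2 : T.IsDiv Y k) : T.IsDiv (X + Y) (h + k) := by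
  refine ⟨mem_add h1.1 h2.1, fun g hg => ?_⟩
  have g2 := hC.memLp g ((hb.w g).1 hg)
  have e1 := h1.2 g hg
  have e2 := h2.2 g hg
  rw [← (T.int _ _).2, int_mul] at e1 e2
  rw [← (T.int _ _).2, int_mul, inner_add_right, e1, e2, mul_add,
    I_add (mem_mul_22 g2 h1.1) (mem_mul_22 g2 h2.1)]
  ring

theorem isDiv_one (hC : IsGamma (sob m)) {a b : L0 m} (ha : a ∈ (sob m).Test)
    (hb' : b ∈ (sob m).Test) :
    T.IsDiv (T.sm a (T.grad b)) ((sob m).Γ a b + a * (sob m).lap b) := by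
  have aA := hC.test_A ha
  have bA := hC.test_A hb'
  have lb := hC.test_isLap hb'
  have m1 : MemLp ((sob m).Γ a b) 2 m := hC.toIsDir.Γ_mem2 aA.1 (hC.test_Γ_top ha) bA.1
  have m2 : MemLp (a * (sob m).lap b : L0 m) 2 m := mem_mul_top aA.2 lb.2.1
  refine ⟨mem_add m1 m2, fun g hg => ?_⟩
  have gW := (hb.w g).1 hg
  have g2 := hC.memLp g gW
  have ag : a * g ∈ (sob m).W := hC.mul_mem_lip aA (hC.test_Γ_top ha) gW
  have e1 : I ((sob m).Γ b (a * g)) = -I ((sob m).lap b * (a * g)) := lb.2.2 _ ag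
  rw [hC.symm _ bA.1 _ ag, hC.Γ_mul_left_lip aA (hC.test_Γ_top ha) gW bA.1,
    I_add (mem_mul_top aA.2 (hC.toIsDir.Γ_mem1 gW bA.1)) (mem_mul_22 g2 m1)] at e1
  rw [ip_sm_right aA.2, hb.gg g gW b bA.1, int_mul, mul_add,
    I_add (mem_mul_22 g2 m1) (mem_mul_22 g2 m2)]
  have e2 : (sob m).lap b * (a * g) = g * (a * (sob m).lap b) := by ring
  rw [e2] at e1
  change I (a * (sob m).Γ g b) = _
  linarith

theorem isDiv_io (hC : IsGamma (sob m)) {l : List (L0 m × L0 m)} (hl : (sob m).IsTestV l) :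
    T.IsDiv (T.io l) ((sob m).dv l) := by
  induction l with
  | nil =>
    refine ⟨mem_zero, fun g _ => ?_⟩
    change ∫ x, T.ip (T.grad g) 0 x ∂m = -∫ x, g x * (0 : L0 m) x ∂m
    rw [← (T.int _ _).2, int_mul, mul_zero, I_zero]
    simp
  | cons p l ih =>
    have : (sob m).dv (p :: l) =
        ((sob m).Γ p.1 p.2 + p.1 * (sob m).lap p.2) + (sob m).dv l := by simp [Calc.dv]
    rw [this, io_cons]
    exact isDiv_add hb hC (isDiv_one hb hC (tv_cons hl).1.1 (tv_cons hl).1.2) (ih (tv_cons hl).2)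

theorem div_io (hC : IsGamma (sob m)) {l : List (L0 m × L0 m)} (hl : (sob m).IsTestV l) :
    T.div (T.io l) = (sob m).dv l :=
  pick_eq 0 (isDiv_io hb hC hl) fun _ h => isDiv_unique hb hC h (isDiv_io hb hC hl)

theorem div_sm (hC : IsGamma (sob m)) {a b : L0 m} (ha : a ∈ (sob m).Test)
    (hb' : b ∈ (sob m).Test) :
    T.div (T.sm a (T.grad b)) = (sob m).Γ a b + a * (sob m).lap b :=
  pick_eq 0 (isDiv_one hb hC ha hb') fun _ h => isDiv_unique hb hC h (isDiv_one hb hC ha hb')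

theorem hdiv (hC : IsGamma (sob m)) (X : H) (hX : T.TestV X) : ∃! h, T.IsDiv X h := by
  obtain ⟨l, hl, rfl⟩ := (testV_iff hb hC X).1 hX
  exact ⟨_, isDiv_io hb hC hl, fun _ h => isDiv_unique hb hC h (isDiv_io hb hC hl)⟩

theorem hgam (hC : IsGamma (sob m)) {κ : ℝ} (hB : (sob m).BEi κ) (f g : L0 m) (hf : T.Test f)
    (hg : T.Test g) : W U m (T.ip (T.grad f) (T.grad g)) := by
  have f' := (test_iff hb hC f).1 hf
  have g' := (test_iff hb hC g).1 hg
  rw [hb.gg _ (hC.test_A f').1 _ (hC.test_A g').1, hb.w]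
  exact (hC.Γ_mem hB f' g').1

omit hb in
theorem mulV_tv (hC : IsGamma (sob m)) {κ : ℝ} (hB : (sob m).BEi κ) {f : L0 m}
    (hf : f ∈ (sob m).Test) {l : List (L0 m × L0 m)} (hl : (sob m).IsTestV l) :
    (sob m).IsTestV (Calc.mulV f l) := by
  intro p hp
  obtain ⟨q, hq, rfl⟩ := List.mem_map.1 hp
  exact ⟨hC.test_mul hB hf (hl q hq).1, (hl q hq).2⟩

theorem hmul (hC : IsGamma (sob m)) {κ : ℝ} (hB : (sob m).BEi κ) (f : L0 m) (X : H)
    (hf : T.Test f) (hX : T.TestV X) : T.TestV (T.sm f X) := by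
  obtain ⟨l, hl, rfl⟩ := (testV_iff hb hC X).1 hX
  have f' := (test_iff hb hC f).1 hf
  exact (testV_iff hb hC _).2 ⟨_, mulV_tv hC hB f' hl, (sm_io hb hC (hC.test_A f').2 hl).symm⟩

theorem isL2TM (hC : IsGamma (sob m)) (hD : Dense {v | ∃ l, (sob m).IsTestV l ∧ T.io l = v}) :
    (sob m).IsL2TM T.io :=
  ⟨fun X Y hX hY => by rw [(T.int _ _).2, ip_io hb hC hX hY], hD⟩

end Vale.Agent.P233G72
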